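import Vale.Agent.P061.TW.Tree
import Mathlib.Data.Real.Basic
import Mathlib.SetTheory.Cardinal.Finite

/-!
Thin spanning trees in edge-connected multigraphs of bounded treewidth.

Vertices are eliminated along the tree decomposition and the cluster of the eliminated vertex is
merged with the neighbouring cluster sharing most edges with it. Among these edges one can be
chosen that is good for all cuts at once, by a Ramsey argument on the traces of the cuts.
-/

namespace Vale.Agent.Results.P061.BoundedTreewidth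

open Vale.Agent.P061.TW

/-- The edge `e` has exactly one endpoint in `S`. -/
def Crosses {V E : Type} (ends : E → Sym2 V) (S : Finset V) (e : E) : Prop :=
  ∃ a ∈ S, ∃ b, b ∉ S ∧ ends e = s(a, b)

/-- Every cut has at least `k` edges, counted with multiplicity. -/
def EdgeConnected {V E : Type} [Fintype V] (ends : E → Sym2 V) (k : ℕ) : Prop :=
  ∀ S : Finset V, S.Nonempty → S ≠ Finset.univ → k ≤ Nat.card {e : E // Crosses ends S e}

/-- There is a tree decomposition with bags of at most `w + 1` vertices. -/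
def TreewidthAtMost {V E : Type} (ends : E → Sym2 V) (w : ℕ) : Prop :=
  ∃ (ι : Type) (H : SimpleGraph ι) (bag : ι → Finset V), Finite ι ∧ H.IsTree ∧
    (∀ i, (bag i).card ≤ w + 1) ∧ (∀ v, (H.induce {i | v ∈ bag i}).Connected) ∧
    ∀ e, ∃ i, ∀ v ∈ ends e, v ∈ bag i

/-- `T` is the edge set of a spanning tree: one edge fewer than vertices, and connected. -/
def IsSpanningTree {V E : Type} [Fintype V] (ends : E → Sym2 V) (T : Finset E) : Prop :=
  T.card + 1 = Fintype.card V ∧ (SimpleGraph.fromEdgeSet (ends '' (T : Set E))).Connected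

theorem result : ∀ w : ℕ, ∃ C : ℝ, ∀ (V E : Type) [Fintype V] [Fintype E] (ends : E → Sym2 V)
    (k : ℕ), 2 ≤ Fintype.card V → 1 ≤ k → (∀ e, ¬ (ends e).IsDiag) → EdgeConnected ends k →
    TreewidthAtMost ends w →
    ∃ T : Finset E, IsSpanningTree ends T ∧ ∀ S : Finset V,
      (Nat.card {e : E // e ∈ T ∧ Crosses ends S e} : ℝ) ≤
        C / k * Nat.card {e : E // Crosses ends S e} := by
  intro w
  refine ⟨((2 * cA w + 4 * cB w * ((w + 1) * (w + 1)) : ℕ) : ℝ), ?_⟩
  intro V E _ _ ends k hV hk hloop hconn ⟨ι, H, bag, hfin, hT, hbag, hsub, hedge⟩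
  classical
  have := Fintype.ofFinite ι
  obtain ⟨m, hm⟩ : ∃ m, Fintype.card V = m + 1 := ⟨Fintype.card V - 1, by omega⟩
  obtain ⟨φ, G, hends⟩ := exists_sys hm ends hloop hT bag hbag hsub hedge hk hconn
  have hne : Nonempty E := by
    have h0 : (⟨0, by omega⟩ : Fin (m + 1)) ≠ Fin.last m := by
      simp [Fin.ext_iff]; omega
    have := G.k_le_F h0
    by_contra hE
    rw [not_nonempty_iff] at hE
    rw [Finset.eq_empty_of_isEmpty (G.F _)] at this
    simp at this
    omega
  obtain ⟨e, he⟩ := G.exists_goodChoice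
  refine ⟨Sys.treeEdges e, ⟨?_, G.treeEdges_connected he φ ends hends⟩, fun S => ?_⟩
  · rw [hm]
    exact G.treeEdges_card he
  set S' : Finset (Fin (m + 1)) := S.map φ.symm.toEmbedding with hS'
  have hcr : ∀ f, Crosses ends S f ↔ f ∈ G.cut S' := by
    intro f
    simp only [G.mem_cut, hS', Finset.mem_map_equiv, Equiv.symm_symm, Crosses, hends f,
      Sym2.eq_iff]
    constructor
    · rintro ⟨a, ha, b, hb, ⟨h1, h2⟩ | ⟨h1, h2⟩⟩ <;> subst h1 h2 <;> tauto
    · intro h
      by_cases h' : φ (G.lo f) ∈ S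
      · exact ⟨_, h', _, fun h2 => h (iff_of_true h' h2), Or.inl ⟨rfl, rfl⟩⟩
      · exact ⟨φ (G.hi f), by tauto, _, h', Or.inr ⟨rfl, rfl⟩⟩
  have h1 : Nat.card {f : E // f ∈ Sys.treeEdges e ∧ Crosses ends S f} =
      ((Sys.treeEdges e).filter fun f => f ∈ G.cut S').card := by
    rw [Nat.card_eq_fintype_card, Fintype.card_subtype]
    congr 1
    ext f
    simp [hcr]
  have h2 : Nat.card {f : E // Crosses ends S f} = (G.cut S').card := by
    rw [Nat.card_eq_fintype_card, Fintype.card_subtype]
    congr 1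
    ext f
    simp [hcr]
  rw [h1, h2, div_mul_eq_mul_div, le_div_iff₀ (Nat.cast_pos.mpr hk), mul_comm]
  exact_mod_cast G.treeEdges_cut he S'

end Vale.Agent.Results.P061.BoundedTreewidth
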