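import Mathlib.Combinatorics.SimpleGraph.Acyclic
import Mathlib.Analysis.SpecialFunctions.Pow.Real
import Mathlib.Algebra.Order.Chebyshev

/-!
Dense multigraphs with bounded multiplicities have thin spanning trees: tree edges are chosen so
that each is bypassed by quadratically many paths of length three.
-/

namespace Vale.Agent.Results.P061.DenseBoundedMult

open Finset

variable {V : Type*} [Fintype V]

/-- Number of edges, with multiplicity `m`, with exactly one endpoint in `S`. -/
noncomputable def mCut (m : V → V → ℕ) (S : Finset V) : ℕ := by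
  classical exact ∑ u ∈ S, ∑ v ∈ Sᶜ, m u v

/-- Number of edges of a simple graph with exactly one endpoint in `S`. -/
noncomputable def tCut (T : SimpleGraph V) (S : Finset V) : ℕ := by
  classical exact ((S ×ˢ Sᶜ).filter fun p => T.Adj p.1 p.2).card

/-- The number of ordered adjacent pairs from the neighbours of `u` to those of `v`. -/
noncomputable def codeg (G : SimpleGraph V) (u v : V) : ℕ := by
  classical exact ((univ ×ˢ univ).filter fun p => G.Adj u p.1 ∧ G.Adj p.1 p.2 ∧ G.Adj p.2 v).card

/-- Every vertex has many neighbours joined to it by many paths of length three. -/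
lemma many_good (G : SimpleGraph V) {ε : ℝ} (hε : 0 < ε)
    (hdeg : ∀ v, open scoped Classical in ε * Fintype.card V ≤ (univ.filter (G.Adj v)).card)
    (u : V) : open scoped Classical in
    ε ^ 4 / 2 * Fintype.card V ≤ (univ.filter fun v =>
      G.Adj u v ∧ ε ^ 4 / 2 * (Fintype.card V : ℝ) ^ 2 ≤ codeg G u v).card := by
  classical
  set n := (Fintype.card V : ℝ) with hn
  have hn0 : 0 < n := by
    have : 0 < Fintype.card V := Fintype.card_pos_iff.2 ⟨u⟩
    rw [hn]
    exact_mod_cast this
  set N := fun v => univ.filter (G.Adj v) with hN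
  set c := fun b => ((N b ∩ N u).card : ℝ) with hc
  have hcod : ∀ v, (codeg G u v : ℝ) = ∑ b ∈ N v, c b := by
    intro v
    rw [codeg]
    simp only [hc]
    rw [← Nat.cast_sum]
    congr 1
    rw [card_eq_sum_card_fiberwise (f := Prod.snd) (t := N v) fun p hp => by
      simp only [coe_filter, Set.mem_ofPred_eq, mem_product] at hp
      simpa [hN] using hp.2.2.2.symm]
    refine sum_congr rfl fun b hb => ?_
    refine card_bij (fun p _ => p.1) (fun p hp => ?_) (fun p hp q hq h => ?_) fun a ha => ?_
    · simp only [mem_filter, mem_product, mem_univ, true_and] at hp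
      simp only [hN, mem_inter, mem_filter, mem_univ, true_and]
      exact ⟨hp.2 ▸ hp.1.2.1.symm, hp.1.1⟩
    · simp only [mem_filter] at hp hq
      exact Prod.ext h (hp.2.trans hq.2.symm)
    · simp only [hN, mem_inter, mem_filter, mem_univ, true_and] at ha hb
      exact ⟨(a, b), by simp [ha.2, ha.1.symm, hb.symm], rfl⟩
  have hswap : ∑ v ∈ N u, ∑ b ∈ N v, c b = ∑ b, c b ^ 2 := by
    simp only [hN, sum_filter]
    have e : ∀ v, (if G.Adj u v then ∑ b, (if G.Adj v b then c b else 0) else 0) =
        ∑ b, if G.Adj u v ∧ G.Adj v b then c b else 0 := by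
      intro v
      by_cases h : G.Adj u v <;> simp [h]
    simp only [e]
    rw [sum_comm]
    refine sum_congr rfl fun b _ => ?_
    rw [← sum_filter, sum_const, nsmul_eq_mul, sq]
    congr 1
    simp only [hc, Nat.cast_inj]
    congr 1
    ext v
    simp only [hN, mem_inter, mem_filter, mem_univ, true_and]
    exact ⟨fun h => ⟨h.2.symm, h.1⟩, fun h => ⟨h.2, h.1.symm⟩⟩
  have hcsum : ε ^ 2 * n ^ 2 ≤ ∑ b, c b := by
    have h1 : ∑ b, c b = ∑ a ∈ N u, ((N a).card : ℝ) := by
      simp only [hc, card_eq_sum_ones, Nat.cast_sum, Nat.cast_one]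
      refine sum_comm' fun b a => ?_
      simp only [hN, mem_inter, mem_filter, mem_univ, true_and]
      exact ⟨fun h => ⟨h.1.symm, h.2⟩, fun h => ⟨h.1.symm, h.2⟩⟩
    rw [h1]
    calc ε ^ 2 * n ^ 2 = (ε * n) * (ε * n) := by ring
      _ ≤ (N u).card * (ε * n) := mul_le_mul_of_nonneg_right (hdeg u) (by positivity)
      _ = ∑ _a ∈ N u, ε * n := by rw [sum_const, nsmul_eq_mul]
      _ ≤ _ := sum_le_sum fun a _ => hdeg a
  have hsq : ε ^ 4 * n ^ 3 ≤ ∑ v ∈ N u, (codeg G u v : ℝ) := by
    rw [sum_congr rfl fun v _ => hcod v, hswap]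
    refine le_of_mul_le_mul_left ?_ hn0
    calc n * (ε ^ 4 * n ^ 3) = (ε ^ 2 * n ^ 2) ^ 2 := by ring
      _ ≤ (∑ b, c b) ^ 2 := pow_le_pow_left₀ (by positivity) hcsum 2
      _ ≤ _ := by simpa [hn] using sq_sum_le_card_mul_sum_sq (s := (univ : Finset V)) (f := c)
  set P := univ.filter fun v => G.Adj u v ∧ ε ^ 4 / 2 * n ^ 2 ≤ (codeg G u v : ℝ) with hP
  have hupper : ∑ v ∈ N u, (codeg G u v : ℝ) ≤ P.card * n ^ 2 + n * (ε ^ 4 / 2 * n ^ 2) := by
    have hcod' : ∀ v, (codeg G u v : ℝ) ≤ n ^ 2 := by
      intro v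
      rw [codeg, sq, hn, ← Nat.cast_mul, Nat.cast_le]
      refine (card_filter_le _ _).trans (le_of_eq ?_)
      rw [card_product, card_univ]
    rw [← sum_filter_add_sum_filter_not (N u) fun v => ε ^ 4 / 2 * n ^ 2 ≤ (codeg G u v : ℝ)]
    refine add_le_add ?_ ?_
    · refine (sum_le_sum fun v _ => hcod' v).trans (le_of_eq ?_)
      rw [sum_const, nsmul_eq_mul]
      congr 2
      simp only [hP, hN, filter_filter]
    · refine (sum_le_sum (g := fun _ => ε ^ 4 / 2 * n ^ 2) fun v hv =>
        le_of_lt (not_le.1 (mem_filter.1 hv).2)).trans ?_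
      rw [sum_const, nsmul_eq_mul]
      refine mul_le_mul_of_nonneg_right ?_ (by positivity)
      rw [hn, Nat.cast_le]
      exact card_le_univ _
  have := hsq.trans hupper
  refine le_of_mul_le_mul_right ?_ (show (0 : ℝ) < n ^ 2 by positivity)
  nlinarith

/-- A degree-bounded forest of `G` inside `H`, maximal as such, crosses a cut only as often as
allowed by the paths of length three. -/
lemma forest_cut (G F : SimpleGraph V) {γ : ℝ} {D : ℕ}
    (hgood : ∀ u v, F.Adj u v → γ * (Fintype.card V : ℝ) ^ 2 ≤ codeg G u v)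
    (hD : ∀ u, open scoped Classical in (univ.filter (F.Adj u)).card ≤ D) (S : Finset V) :
    γ * (Fintype.card V : ℝ) ^ 2 * tCut F S ≤ 3 * D * Fintype.card V * tCut G S := by
  classical
  set n := Fintype.card V
  set A := (S ×ˢ Sᶜ).filter fun p => F.Adj p.1 p.2 with hA
  set B := (S ×ˢ Sᶜ).filter fun p => G.Adj p.1 p.2 with hB
  set P := A.sigma fun q => (univ ×ˢ univ).filter fun p : V × V =>
    G.Adj q.1 p.1 ∧ G.Adj p.1 p.2 ∧ G.Adj p.2 q.2 with hP
  have hlow : γ * (n : ℝ) ^ 2 * tCut F S ≤ P.card := by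
    rw [hP, card_sigma, Nat.cast_sum]
    calc γ * (n : ℝ) ^ 2 * tCut F S = ∑ _q ∈ A, γ * (n : ℝ) ^ 2 := by
          rw [sum_const, nsmul_eq_mul, tCut, hA, mul_comm]
      _ ≤ _ := sum_le_sum fun q hq => by
          have := hgood q.1 q.2 (mem_filter.1 hq).2
          simpa [codeg] using this
  let f : (Σ _ : V × V, V × V) → V × V := fun x =>
    if x.2.1 ∈ S then (if x.2.2 ∈ S then (x.2.2, x.1.2) else (x.2.1, x.2.2)) else (x.1.1, x.2.1)
  have hf : ∀ x ∈ P, f x ∈ B := by
    rintro ⟨⟨u, v⟩, a, b⟩ hx
    simp only [hP, hA, mem_sigma, mem_filter, mem_product, mem_compl, mem_univ, true_and] at hx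
    obtain ⟨⟨⟨hu, hv⟩, -⟩, h1, h2, h3⟩ := hx
    simp only [f, hB]
    split_ifs with ha hb <;> simp only [mem_filter, mem_product, mem_compl]
    exacts [⟨⟨hb, hv⟩, h3⟩, ⟨⟨ha, hb⟩, h2⟩, ⟨⟨hu, ha⟩, h1⟩]
  have hfib : ∀ p ∈ B, (P.filter fun x => f x = p).card ≤ 3 * D * n := by
    rintro ⟨a, b⟩ -
    set N := fun x => univ.filter (F.Adj x) with hN
    have hsub : (P.filter fun x => f x = (a, b)) ⊆
        ((N a ×ˢ (univ : Finset V)).image fun y => ⟨(a, y.1), (b, y.2)⟩) ∪
        ((univ : Finset V).sigma N).image (fun y => ⟨(y.1, y.2), (a, b)⟩) ∪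
        ((N b ×ˢ (univ : Finset V)).image fun y => ⟨(y.1, b), (y.2, a)⟩) := by
      rintro ⟨⟨u, v⟩, c, d⟩ hx
      simp only [mem_filter, hP, hA, mem_sigma] at hx
      obtain ⟨⟨⟨-, huv⟩, -⟩, he⟩ := hx
      simp only [f] at he
      simp only [mem_union, mem_image, mem_product, mem_univ, and_true, hN, mem_sigma,
        mem_filter, true_and]
      split_ifs at he <;> simp only [Prod.mk.injEq] at he <;> obtain ⟨rfl, rfl⟩ := he
      · exact .inr ⟨(u, c), huv.symm, rfl⟩
      · exact .inl (.inr ⟨⟨u, v⟩, huv, rfl⟩)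
      · exact .inl (.inl ⟨(v, d), huv, rfl⟩)
    refine (card_le_card hsub).trans ((card_union_le _ _).trans ?_)
    refine (add_le_add ((card_union_le _ _).trans (add_le_add card_image_le card_image_le))
      card_image_le).trans ?_
    rw [card_product, card_product, card_sigma, card_univ]
    have h1 := Nat.mul_le_mul_right n (hD a)
    have h2 := Nat.mul_le_mul_right n (hD b)
    have h3 := sum_le_sum (s := (univ : Finset V)) fun x _ => hD x
    rw [sum_const, card_univ, smul_eq_mul] at h3
    calc (N a).card * n + ∑ x, (N x).card + (N b).card * n ≤ D * n + n * D + D * n := by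
          simp only [hN]
          exact add_le_add (add_le_add h1 h3) h2
      _ = 3 * D * n := by ring
  have hup : P.card ≤ B.card * (3 * D * n) := by
    rw [card_eq_sum_card_fiberwise hf]
    exact (sum_le_sum hfib).trans (by rw [sum_const, smul_eq_mul])
  refine hlow.trans ?_
  have : (P.card : ℝ) ≤ ((B.card * (3 * D * n) : ℕ) : ℝ) := by exact_mod_cast hup
  push_cast at this
  rw [tCut, ← hB]
  linarith

/-- Maximality of a degree-bounded forest leaves only few components. -/
lemma few_comp (H : SimpleGraph V) {γ : ℝ} {D : ℕ} (hγ : 0 < γ) (hD : 2 ≤ D)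
    (hDγ : 4 ≤ γ * D)
    (hH : ∀ u, open scoped Classical in γ * Fintype.card V ≤ (univ.filter (H.Adj u)).card) :
    ∃ F ≤ H, F.IsAcyclic ∧ (∀ u, open scoped Classical in (univ.filter (F.Adj u)).card ≤ D) ∧
      open scoped Classical in
      (Fintype.card V : ℝ) ≤ F.edgeFinset.card + 2 / γ + 1 := by
  classical
  let ok : SimpleGraph V → Prop := fun F =>
    F ≤ H ∧ F.IsAcyclic ∧ ∀ u, (univ.filter (F.Adj u)).card ≤ D
  obtain ⟨F, hF⟩ := Set.Finite.exists_maximal (Set.toFinite {F | ok F})
    ⟨⊥, bot_le, SimpleGraph.isAcyclic_bot, fun u => by simp⟩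
  obtain ⟨⟨hle, hac, hdeg⟩, hmax⟩ := hF
  refine ⟨F, hle, hac, hdeg, ?_⟩
  set n := Fintype.card V
  let _ : Fintype F.ConnectedComponent := Fintype.ofFinite _
  have hforest : n ≤ F.edgeFinset.card + Fintype.card F.ConnectedComponent + 1 := by
    rcases isEmpty_or_nonempty V with hV | ⟨⟨r⟩⟩
    · simp [n]
    set E' : Finset (Sym2 V) := (univ : Finset F.ConnectedComponent).image fun K => s(r, K.out)
    set G' := F ⊔ SimpleGraph.fromEdgeSet (↑E' : Set (Sym2 V))
    have hreach : ∀ v, G'.Reachable v r := by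
      intro v
      have h1 : F.Reachable v (F.connectedComponentMk v).out :=
        SimpleGraph.ConnectedComponent.exact ((F.connectedComponentMk v).out_eq).symm
      refine (h1.mono le_sup_left).trans ?_
      by_cases h : (F.connectedComponentMk v).out = r
      · rw [h]
      · refine SimpleGraph.Adj.reachable (Or.inr ?_)
        rw [SimpleGraph.fromEdgeSet_adj]
        exact ⟨mem_coe.2 (mem_image.2 ⟨_, mem_univ _, Sym2.eq_swap⟩), h⟩
    have : Nonempty V := ⟨r⟩
    have h := SimpleGraph.Connected.card_vert_le_card_edgeSet_add_one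
      (G := G') ⟨fun a b => (hreach a).trans (hreach b).symm⟩
    rw [Nat.card_eq_fintype_card, Nat.card_eq_fintype_card, ← SimpleGraph.edgeFinset_card] at h
    have hsub : G'.edgeFinset ⊆ F.edgeFinset ∪ E' := by
      intro e he
      rw [SimpleGraph.mem_edgeFinset, SimpleGraph.edgeSet_sup,
        SimpleGraph.edgeSet_fromEdgeSet] at he
      rcases he with h | h
      · exact mem_union_left _ (SimpleGraph.mem_edgeFinset.2 h)
      · exact mem_union_right _ (mem_coe.1 h.1)
    have h2 : E'.card ≤ Fintype.card F.ConnectedComponent := card_image_le.trans (by rw [card_univ])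
    have := (card_le_card hsub).trans (card_union_le _ _)
    omega
  have hle_n : F.edgeFinset.card ≤ n := by
    rcases isEmpty_or_nonempty V with hV | hV
    · simp [Finset.eq_empty_of_isEmpty]
    obtain ⟨T, hFT, -, hT⟩ := SimpleGraph.connected_top.exists_isTree_le_of_le_of_isAcyclic
      (le_top : F ≤ ⊤) hac
    have := hT.card_edgeFinset
    have := card_le_card (SimpleGraph.edgeFinset_mono hFT)
    omega
  set sat := univ.filter fun u => D ≤ (univ.filter (F.Adj u)).card
  have hsat : (D : ℝ) * sat.card ≤ 2 * n := by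
    have h1 : sat.card * D ≤ ∑ u, F.degree u := by
      refine le_trans (le_of_eq (by rw [sum_const, smul_eq_mul])) ((sum_le_sum fun u hu => ?_).trans
        (sum_le_sum_of_subset (subset_univ sat)))
      rw [← SimpleGraph.card_neighborFinset_eq_degree, SimpleGraph.neighborFinset_eq_filter]
      exact (mem_filter.1 hu).2
    rw [SimpleGraph.sum_degrees_eq_twice_card_edges] at h1
    have : sat.card * D ≤ 2 * n := by omega
    rw [mul_comm]
    exact_mod_cast this
  have hsmall : (sat.card : ℝ) ≤ γ * n / 2 := by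
    rw [le_div_iff₀ two_pos]
    refine le_of_mul_le_mul_left ?_ (show (0 : ℝ) < D by exact_mod_cast lt_of_lt_of_le two_pos hD)
    nlinarith [mul_nonneg (sub_nonneg.2 hDγ) (Nat.cast_nonneg (α := ℝ) n)]
  set comp : V → F.ConnectedComponent := F.connectedComponentMk
  have hbig : ∀ K : F.ConnectedComponent,
      γ * n / 2 ≤ (univ.filter fun u => comp u = K).card := by
    intro K
    obtain ⟨x, hxK, hx⟩ : ∃ x, comp x = K ∧ (univ.filter (F.Adj x)).card ≤ 1 := by
      have hmem : ∀ a v, a ∈ K → F.Adj a v → v ∈ K := fun a v h hv => K.mem_supp_of_adj_mem_supp h hv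
      by_cases hnt : Nontrivial K
      · obtain ⟨⟨a, ha⟩, hd⟩ :=
          (hac.isTree_connectedComponent K).exists_vert_degree_one_of_nontrivial
        refine ⟨a, ha, le_trans ?_ hd.le⟩
        rw [← SimpleGraph.card_neighborFinset_eq_degree]
        refine card_le_card_of_surjOn (fun b => b.1) fun v hv => ?_
        simp only [coe_filter, Set.mem_ofPred_eq, mem_univ, true_and] at hv
        exact ⟨⟨v, hmem a v ha hv⟩, by simpa [SimpleGraph.mem_neighborFinset] using
          (SimpleGraph.ConnectedComponent.toSimpleGraph_adj K ha (hmem a v ha hv)).2 hv, rfl⟩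
      · refine ⟨K.out, K.out_eq, le_trans (le_of_eq ?_) zero_le_one⟩
        rw [card_eq_zero, filter_eq_empty_iff]
        intro v _ hv
        exact hnt ⟨⟨⟨K.out, K.out_eq⟩, ⟨v, hmem _ v K.out_eq hv⟩,
          fun h => hv.ne (congrArg Subtype.val h)⟩⟩
    refine le_trans ?_ (Nat.cast_le.2 (card_le_card (s := univ.filter (H.Adj x) \ sat) ?_))
    · have h1 : (univ.filter (H.Adj x)).card ≤ (univ.filter (H.Adj x) \ sat).card + sat.card :=
        card_le_card_sdiff_add_card
      have := hH x
      have h2 : ((univ.filter (H.Adj x)).card : ℝ) ≤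
          (univ.filter (H.Adj x) \ sat).card + sat.card := by exact_mod_cast h1
      linarith
    intro y hy
    simp only [mem_sdiff, mem_filter, mem_univ, true_and, sat, not_le] at hy
    refine mem_filter.2 ⟨mem_univ _, ?_⟩
    rw [← hxK]
    by_contra hne
    have hnr : ¬ F.Reachable x y := fun h => hne (SimpleGraph.ConnectedComponent.sound h.symm)
    have hok : ok (F ⊔ SimpleGraph.edge x y) := by
      refine ⟨sup_le hle (by rw [SimpleGraph.edge_le_iff]; exact .inr hy.1),
        hac.sup_edge_of_not_reachable hnr, fun u => ?_⟩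
      have hxy : x ≠ y := hy.1.ne
      have hsub : univ.filter ((F ⊔ SimpleGraph.edge x y).Adj u) ⊆ univ.filter (F.Adj u) ∪
          (if u = x then {y} else ∅) ∪ (if u = y then {x} else ∅) := by
        intro v hv
        simp only [mem_filter, mem_univ, true_and, SimpleGraph.sup_adj, SimpleGraph.edge_adj] at hv
        simp only [mem_union, mem_filter, mem_univ, true_and]
        rcases hv with h | ⟨⟨rfl, rfl⟩ | ⟨rfl, rfl⟩, -⟩ <;> simp [*]
      refine le_trans (le_of_eq (by congr 2)) ((card_le_card hsub).trans ((card_union_le _ _).trans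
        ((add_le_add (card_union_le _ _) le_rfl).trans ?_)))
      by_cases hux : u = x
      · subst hux
        simp [hxy]
        omega
      · by_cases huy : u = y
        · subst huy
          simp [hxy.symm]
          omega
        · simpa [hux, huy] using hdeg u
    have h := hmax hok le_sup_left
    exact hnr ((show F.Adj x y from h (Or.inr (by simp [SimpleGraph.edge_adj, hy.1.ne]))).reachable)
  have hsum : ∑ K : F.ConnectedComponent, (univ.filter fun u => comp u = K).card = n :=
    (card_eq_sum_card_fiberwise fun _ _ => mem_coe.2 (mem_univ _)).symm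
  have hn : (Fintype.card F.ConnectedComponent : ℝ) * (γ * n / 2) ≤ n := by
    calc (Fintype.card F.ConnectedComponent : ℝ) * (γ * n / 2)
        = ∑ _K : F.ConnectedComponent, γ * n / 2 := by rw [sum_const, card_univ, nsmul_eq_mul]
      _ ≤ ∑ K : F.ConnectedComponent, ((univ.filter fun u => comp u = K).card : ℝ) :=
          sum_le_sum fun K _ => hbig K
      _ = n := by rw [← Nat.cast_sum, hsum]
  have hcast : (n : ℝ) ≤ F.edgeFinset.card + Fintype.card F.ConnectedComponent + 1 := by
    exact_mod_cast hforest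
  rcases Nat.eq_zero_or_pos n with h0 | h0
  · rw [h0, Nat.cast_zero]; positivity
  have : (Fintype.card F.ConnectedComponent : ℝ) ≤ 2 / γ := by
    rw [le_div_iff₀ hγ]
    refine le_of_mul_le_mul_right ?_ (show (0 : ℝ) < n by exact_mod_cast h0)
    nlinarith
  linarith

theorem result (ε : ℝ) (hε : 0 < ε) (M : ℕ) :
    ∃ C : ℝ, 0 < C ∧ ∀ (V : Type) [Fintype V] (m : V → V → ℕ) (k : ℕ),
      2 ≤ Fintype.card V → 1 ≤ k →
      (∀ u v, m u v = m v u) → (∀ u, m u u = 0) → (∀ u v, m u v ≤ M) →
      (∀ u, ε * Fintype.card V ≤ (univ.filter fun v => 0 < m u v).card) →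
      (∀ S : Finset V, S.Nonempty → S ≠ univ → k ≤ mCut m S) →
      ∃ T : SimpleGraph V, T.IsTree ∧ (∀ u v, T.Adj u v → 0 < m u v) ∧
        ∀ S : Finset V, S.Nonempty → S ≠ univ →
          (tCut T S : ℝ) ≤ C / k * mCut m S := by
  classical
  set γ := ε ^ 4 / 2 with hγdef
  have hγ : 0 < γ := by positivity
  set D := ⌈4 / γ⌉₊ + 2 with hDdef
  have hDγ : 4 ≤ γ * D := by
    have h := Nat.le_ceil (4 / γ)
    rw [div_le_iff₀ hγ] at h
    rw [hDdef]
    push_cast
    nlinarith
  refine ⟨3 * D * M / γ + 2 / γ + 1, by positivity, fun V _ m k hn hk hsym hloop hM hdeg hcut => ?_⟩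
  set n := Fintype.card V with hndef
  let G : SimpleGraph V :=
    { Adj := fun u v => 0 < m u v
      symm := ⟨fun u v h => by rwa [hsym]⟩
      loopless := ⟨fun u h => by simp [hloop] at h⟩ }
  let H : SimpleGraph V :=
    { Adj := fun u v => G.Adj u v ∧ γ * (n : ℝ) ^ 2 ≤ codeg G u v
      symm := ⟨fun u v h => ⟨h.1.symm, h.2.trans (le_of_eq (by
        unfold codeg
        congr 1
        refine card_bij (fun p _ => (p.2, p.1)) (fun p hp => ?_) (fun p _ q _ h => ?_)
          fun p hp => ?_
        · simp only [mem_filter, mem_product, mem_univ, true_and] at hp ⊢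
          exact ⟨hp.2.2.symm, hp.2.1.symm, hp.1.symm⟩
        · simp only [Prod.mk.injEq] at h
          exact Prod.ext h.2 h.1
        · simp only [mem_filter, mem_product, mem_univ, true_and] at hp
          exact ⟨(p.2, p.1), by simp [hp.1.symm, hp.2.1.symm, hp.2.2.symm], rfl⟩))⟩⟩
      loopless := ⟨fun u h => G.loopless.irrefl u h.1⟩ }
  obtain ⟨F, hFH, hFac, hFdeg, hFedge⟩ := few_comp H (γ := γ) (D := D) hγ (by omega) hDγ
    fun u => by
      convert many_good G hε (fun v => le_of_le_of_eq (hdeg v)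
        (by congr 2; ext a; simp [G])) u
  have hFG : F ≤ G := fun u v h => (hFH h).1
  have hmle : ∀ S, tCut G S ≤ mCut m S := by
    intro S
    rw [tCut, mCut, card_filter, sum_product]
    exact sum_le_sum fun u _ => sum_le_sum fun v _ => by
      by_cases h : G.Adj u v
      · rw [if_pos h]; exact h
      · rw [if_neg h]; exact Nat.zero_le _
  have hconn : G.Connected := by
    have : Nonempty V := Fintype.card_pos_iff.1 (by omega)
    refine ⟨fun a b => ?_⟩
    by_contra hab
    set S := univ.filter fun v => G.Reachable a v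
    have h := hcut S ⟨a, by simp [S]⟩ fun h => hab (by
      have := h.symm ▸ mem_univ b
      simpa [S] using this)
    have hz : mCut m S = 0 := sum_eq_zero fun u hu => sum_eq_zero fun v hv => by
      simp only [S, mem_filter, mem_univ, true_and, mem_compl] at hu hv
      by_contra hne
      exact hv (hu.trans (show G.Adj u v from Nat.pos_of_ne_zero hne).reachable)
    omega
  obtain ⟨T, hFT, hTG, hT⟩ := hconn.exists_isTree_le_of_le_of_isAcyclic hFG hFac
  refine ⟨T, hT, fun u v h => hTG h, fun S hS hS' => ?_⟩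
  have hTcard : T.edgeFinset.card + 1 = n := hT.card_edgeFinset
  have hsplit : tCut T S ≤ tCut F S + (T.edgeFinset \ F.edgeFinset).card := by
    set A := (S ×ˢ Sᶜ).filter fun p => T.Adj p.1 p.2 with hA
    have h1 : (A.filter fun p => ¬ F.Adj p.1 p.2).card ≤ (T.edgeFinset \ F.edgeFinset).card := by
      refine card_le_card_of_injOn (fun p => s(p.1, p.2)) (fun p hp => ?_) fun p hp q hq h => ?_
      · simp only [coe_filter, Set.mem_ofPred_eq, hA, mem_filter] at hp
        simp [hp.1.2, hp.2]
      · simp only [coe_filter, Set.mem_ofPred_eq, hA, mem_filter, mem_product, mem_compl] at hp hq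
        rcases Sym2.eq_iff.1 h with ⟨a, b⟩ | ⟨a, b⟩
        · exact Prod.ext a b
        · exact absurd (a ▸ hp.1.1.1) hq.1.1.2
    have h2 : (A.filter fun p => F.Adj p.1 p.2).card ≤ tCut F S := by
      rw [tCut, hA, filter_filter]
      exact card_le_card fun p hp => by
        simp only [mem_filter] at hp ⊢
        exact ⟨hp.1, hp.2.2⟩
    have := card_filter_add_card_filter_not (s := A) fun p => F.Adj p.1 p.2
    rw [tCut, ← hA]
    omega
  have hFT' : F.edgeFinset ⊆ T.edgeFinset := SimpleGraph.edgeFinset_mono hFT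
  have hextra : ((T.edgeFinset \ F.edgeFinset).card : ℝ) ≤ 2 / γ := by
    have := card_sdiff_add_card_eq_card hFT'
    have h2 : ((T.edgeFinset \ F.edgeFinset).card : ℝ) + F.edgeFinset.card + 1 = n := by
      exact_mod_cast (show (T.edgeFinset \ F.edgeFinset).card + F.edgeFinset.card + 1 = n by omega)
    linarith
  have hf := forest_cut G F (γ := γ) (D := D)
    (fun u v h => by simpa using (hFH h).2) hFdeg S
  have hkS : (k : ℝ) ≤ mCut m S := by exact_mod_cast hcut S hS hS'
  have hkn : (k : ℝ) ≤ M * n := by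
    obtain ⟨v₀⟩ : Nonempty V := Fintype.card_pos_iff.1 (by omega)
    have h1 : k ≤ mCut m {v₀} := hcut _ (singleton_nonempty _) fun h => by
      have := congrArg Finset.card h
      simp at this
      omega
    have h2 : mCut m {v₀} ≤ n * M := by
      rw [mCut, sum_singleton]
      refine (sum_le_sum fun v _ => hM _ v).trans ?_
      rw [sum_const, smul_eq_mul]
      exact Nat.mul_le_mul_right M (card_le_univ _)
    rw [mul_comm (M : ℝ)]
    exact_mod_cast h1.trans h2
  have hk0 : (0 : ℝ) < k := by exact_mod_cast hk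
  have hn0 : (0 : ℝ) < n := by exact_mod_cast lt_of_lt_of_le two_pos hn
  have hGle : (tCut G S : ℝ) ≤ mCut m S := by exact_mod_cast hmle S
  have hF' : (tCut F S : ℝ) * k ≤ 3 * D * M / γ * mCut m S := by
    have h1 : γ * n * (tCut F S : ℝ) ≤ 3 * D * mCut m S := by
      refine le_of_mul_le_mul_left ?_ hn0
      calc (n : ℝ) * (γ * n * tCut F S) = γ * (n : ℝ) ^ 2 * tCut F S := by ring
        _ ≤ 3 * D * n * tCut G S := hf
        _ ≤ 3 * D * n * mCut m S := by gcongr
        _ = _ := by ring
    rw [div_mul_eq_mul_div, le_div_iff₀ hγ]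
    calc (tCut F S : ℝ) * k * γ ≤ tCut F S * (M * n) * γ := by gcongr
      _ = M * (γ * n * tCut F S) := by ring
      _ ≤ M * (3 * D * mCut m S) := by gcongr
      _ = _ := by ring
  have hE : ((T.edgeFinset \ F.edgeFinset).card : ℝ) * k ≤ 2 / γ * mCut m S :=
    mul_le_mul hextra hkS hk0.le (by positivity)
  rw [div_mul_eq_mul_div, le_div_iff₀ hk0]
  have : (tCut T S : ℝ) ≤ tCut F S + (T.edgeFinset \ F.edgeFinset).card := by exact_mod_cast hsplit
  nlinarith [Nat.cast_nonneg (α := ℝ) (mCut m S)]

end Vale.Agent.Results.P061.DenseBoundedMult
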