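import Mathlib.Combinatorics.SimpleGraph.Acyclic
import Mathlib.Analysis.SpecialFunctions.Pow.Real

/-! Complete graphs show that the constant in thin spanning trees is at least four. -/

namespace Vale.Agent.Results.P061.ThinnessAtLeastFour

open Finset

/-- Number of edges with exactly one endpoint in `S`. -/
noncomputable def cutSize {n : ℕ} (G : SimpleGraph (Fin n)) (S : Finset (Fin n)) : ℕ := by
  classical exact ((S ×ˢ Sᶜ).filter fun p => G.Adj p.1 p.2).card

lemma cutSize_top {n : ℕ} (S : Finset (Fin n)) :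
    cutSize (⊤ : SimpleGraph (Fin n)) S = S.card * (n - S.card) := by
  unfold cutSize
  convert (Finset.card_product S Sᶜ).trans (by rw [Finset.card_compl, Fintype.card_fin]) using 2
  ext p
  simp only [Finset.mem_filter, Finset.mem_product, Finset.mem_compl, SimpleGraph.top_adj]
  exact ⟨fun h => h.1, fun h => ⟨h, fun e => h.2 (e ▸ h.1)⟩⟩

theorem result (ε : ℝ) (hε : 0 < ε) : ∃ N : ℕ, ∀ n ≥ N,
    (∀ S : Finset (Fin n), S.Nonempty → S ≠ univ →
      n - 1 ≤ cutSize (⊤ : SimpleGraph (Fin n)) S) ∧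
    ∀ T : SimpleGraph (Fin n), T ≤ ⊤ → T.IsTree →
      ∃ S : Finset (Fin n), S.Nonempty ∧ S ≠ univ ∧
        (4 - ε) / ((n - 1 : ℕ) : ℝ) * cutSize (⊤ : SimpleGraph (Fin n)) S < cutSize T S := by
  classical
  refine ⟨⌈8 / ε⌉₊ + 3, fun n hn => ⟨fun S hS hU => ?_, fun T _ hT => ?_⟩⟩
  · rw [cutSize_top]
    have h1 := hS.card_pos
    have h2 : S.card < n := by
      simpa using Finset.card_lt_card (S.subset_univ.ssubset_of_ne hU)
    obtain ⟨a, ha⟩ := Nat.exists_eq_add_of_le h1
    obtain ⟨b, hb⟩ := Nat.exists_eq_add_of_lt h2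
    have e : n - S.card = b + 1 := by omega
    rw [e, ha]
    have : n - 1 = a + b + 1 := by omega
    rw [this]; nlinarith
  let c := hT.coloringTwo
  set S := univ.filter fun v => c v = 0 with hSdef
  refine ⟨S, ?_⟩
  have hcard : T.edgeFinset.card ≤ cutSize T S := by
    unfold cutSize
    refine Finset.card_le_card_of_surjOn (fun p => s(p.1, p.2)) ?_
    intro e he
    induction e using Sym2.ind with
    | _ u v =>
      rw [Finset.mem_coe, SimpleGraph.mem_edgeFinset, SimpleGraph.mem_edgeSet] at he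
      have hne := c.valid he
      by_cases hu : c u = 0
      · exact ⟨(u, v), by
          simp only [Finset.mem_coe, Finset.mem_filter, Finset.mem_product, Finset.mem_compl,
            S, Finset.mem_univ, true_and]
          exact ⟨⟨hu, fun h => hne (hu.trans h.symm)⟩, he⟩, rfl⟩
      · exact ⟨(v, u), by
          simp only [Finset.mem_coe, Finset.mem_filter, Finset.mem_product, Finset.mem_compl,
            S, Finset.mem_univ, true_and]
          exact ⟨⟨by omega, hu⟩, he.symm⟩, Sym2.eq_swap⟩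
  have hedge : T.edgeFinset.card + 1 = n := by simpa using hT.card_edgeFinset
  have hn3 : 3 ≤ n := le_trans (Nat.le_add_left 3 _) hn
  have hlo : n - 1 ≤ cutSize T S := by omega
  have hpos : 0 < cutSize T S := by omega
  obtain ⟨hne, hnu⟩ : S.Nonempty ∧ S ≠ univ := by
    constructor
    · rw [Finset.nonempty_iff_ne_empty]
      intro h
      rw [h] at hpos
      simp [cutSize] at hpos
    · intro h
      rw [h] at hpos
      simp [cutSize] at hpos
  refine ⟨hne, hnu, ?_⟩
  have hle : S.card ≤ n := by simpa using S.card_le_univ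
  rw [cutSize_top, Nat.cast_mul, Nat.cast_sub hle]
  have hleR : (S.card : ℝ) ≤ (n : ℝ) := Nat.cast_le.2 hle
  have hnR : ((⌈8 / ε⌉₊ + 3 : ℕ) : ℝ) ≤ (n : ℝ) := Nat.cast_le.2 hn
  push_cast at hnR
  set s : ℝ := (S.card : ℝ)
  set r : ℝ := (n : ℝ)
  have h1 : ((n - 1 : ℕ) : ℝ) = r - 1 := by
    rw [Nat.cast_sub (by omega : 1 ≤ n)]; norm_num [r]
  have hrε : 8 / ε + 3 ≤ r := by
    linarith [Nat.le_ceil (8 / ε)]
  have hr : 8 < ε * r := by
    have h := mul_le_mul_of_nonneg_left hrε hε.le
    rw [mul_add, mul_div_cancel₀ _ hε.ne'] at h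
    linarith
  have hr3 : 3 ≤ r := by linarith [div_pos (by norm_num : (0:ℝ) < 8) hε]
  have hT' : r - 1 ≤ (cutSize T S : ℝ) := by
    rw [← h1]; exact_mod_cast hlo
  have hs : 0 ≤ s * (r - s) := mul_nonneg (Nat.cast_nonneg _)
    (sub_nonneg.2 hleR)
  have hq : 4 * (s * (r - s)) ≤ r ^ 2 := by nlinarith [sq_nonneg (r - 2 * s)]
  rw [h1]
  refine lt_of_lt_of_le ?_ hT'
  rw [div_mul_eq_mul_div, div_lt_iff₀ (by linarith)]
  rcases le_or_gt (4 - ε) 0 with h | h
  · nlinarith [mul_nonpos_of_nonpos_of_nonneg h hs]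
  · nlinarith [mul_le_mul_of_nonneg_left hq h.le]

end Vale.Agent.Results.P061.ThinnessAtLeastFour
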